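import Vale.Agent.P313.CT.Lib
import Vale.Agent.P313.BP.PhVal

/-!
The induction over all levels: if the program of every phase returns the canonical value as soon as
the lower levels do, then so does the whole program.
-/

namespace Vale.Agent.P313.H899

open Finset CT BP

/-- Everything on which canonical values depend. -/
structure Ctx where
  /-- parameters -/
  p : Par2
  /-- kernels and losses -/
  S : Sem
  /-- trees -/
  T : TSem
  /-- successors of the configurations -/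
  cs : ℕ → Bool → ℕ
  /-- offsets -/
  o : ℕ → ℕ → ℕ
  /-- seed of the sampler -/
  w : ℕ → ℕ

namespace Ctx

variable (C : Ctx)

/-- Canonical data of stage `s`. -/
noncomputable def dt (s : ℕ) : SD := data C.p.toPar C.S C.cs C.o s

/-- Canonical value of level `l` at the query `q` and the tape `t`. -/
noncomputable def pv (l q : ℕ) (t : Tp) : ℕ :=
  phVal C.p C.S C.T C.w (C.dt (l / C.p.m)) (C.o (l / C.p.m) 0) (C.o (l / C.p.m) 1)
    (C.o (l / C.p.m) 2) (l % C.p.m) q t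

/-- Valid queries of level `l`. -/
def vl (l q : ℕ) : Prop := vq C.p (C.dt (l / C.p.m)) (l % C.p.m) q

/-- The levels below `l` are answered canonically. -/
def Right (V : Orc) (l : ℕ) : Prop :=
  ∀ l' < l, ∀ q, C.vl l' q → ∀ t, TpOk C.p t → V (Nat.pair l' q) t = C.pv l' q t

/-- The environment is the one described in `Lay.lean`. -/
structure EnvOk (E : Env) : Prop where
  s0 : E.st 0 = C.p.n
  s1 : E.st 1 = C.p.q
  s2 : E.st 2 = C.p.b
  s3 : E.st 3 = C.p.r
  s4 : E.st 4 = C.p.rk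
  s5 : E.st 5 = C.p.K
  s6 : E.st 6 = C.p.Th1
  s7 : E.st 7 = C.p.D
  s8 : E.st 8 = C.p.JF
  s9 : E.st 9 = C.p.JN
  s10 : E.st 10 = C.p.Th
  s11 : E.st 11 = C.p.cmax
  s12 : E.st 12 = C.p.nd
  s13 : E.st 13 = C.p.Lam
  s14 : E.st 14 = C.p.Q
  s15 : E.st 15 = C.p.DC
  s16 : E.st 16 = C.p.c0
  s17 : E.st 17 = C.p.lw
  s18 : E.st 18 = C.p.Om
  s19 : E.st 19 = C.p.m
  s20 : E.st 20 = C.p.S
  off : ∀ s < C.p.S, ∀ i < 3, E.st (stOff s i) = C.o s i
  seed : ∀ i < 2 * C.p.DC + 2 * C.p.lw, E.st (stW C.p.S + i) = C.w i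
  stB : ∀ j < stW C.p.S + 2 * C.p.DC + 2 * C.p.lw, E.st j ≤ E.B
  w : E.w = C.p.q
  L : E.L = C.p.L

/-- Stage data are valid. -/
structure DtOk (d : SD) : Prop where
  row : ∀ v < C.p.n, ∑ x ∈ range C.p.n, d.A v x = C.p.q ^ C.p.b
  cb : ∀ v < C.p.n, C.p.b ≤ d.c v
  cm : ∀ v < C.p.n, d.c v ≤ C.p.cmax
  mass : ∑ v ∈ range C.p.n, C.p.q ^ (d.c v - C.p.b) ≤ 2 * C.p.n
  kK : ∀ v < C.p.n, d.k v ≤ C.p.K

/-- All hypotheses under which the phases are correct. -/
structure Hyp (E : Env) : Prop extends C.EnvOk E where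
  /-- the top level is small -/
  topB : C.p.S * C.p.m ≤ E.B
  /-- at least all kinds -/
  B18 : 18 ≤ E.B
  /-- valid queries are small -/
  qB : ∀ l ≤ C.p.S * C.p.m, ∀ q, C.vl l q → q ≤ E.B
  /-- canonical values are small -/
  vB : ∀ l ≤ C.p.S * C.p.m, ∀ q, C.vl l q → ∀ t, TpOk C.p t → C.pv l q t ≤ E.B
  /-- data are valid -/
  dtOk : ∀ s ≤ C.p.S, C.DtOk (C.dt s)
  /-- majorities are canonical, kind `0` -/
  mj0 : ∀ s < C.p.S, ∀ a < C.p.r, ∀ v < C.p.n, ∀ x < C.p.n, ∀ t, TpOk C.p t →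
    maj C.p.lw (fun j => avgV C.p C.T C.w (C.dt s) (fun _ => False) (C.o s 0) j a v x t) =
      P0 C.p.toPar C.S (C.dt s) (C.o s 0) a v x
  /-- majorities are canonical, loss -/
  mjL : ∀ s < C.p.S, ∀ x < C.p.n, ∀ t, TpOk C.p t →
    maj C.p.lw (fun j => avgL C.p C.T C.w (C.dt s) (Z1 C.p.toPar C.S (C.dt s) (C.o s 0))
      (C.o s 1) j x t) = lossR C.p.toPar C.S (C.dt s) (C.o s 0) (C.o s 1) x
  /-- majorities are canonical, kind `2` -/
  mj2 : ∀ s < C.p.S, ∀ a < C.p.r, ∀ v < C.p.n, ∀ x < C.p.n, ∀ t, TpOk C.p t →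
    maj C.p.lw (fun j => avgV C.p C.T C.w (C.dt s)
      (Zs C.p.toPar C.S (C.dt s) (C.o s 0) (C.o s 1)) (C.o s 2) j a v x t) =
      P2 C.p.toPar C.S (C.dt s) (C.o s 0) (C.o s 1) (C.o s 2) a v x

/-- THE GOAL FOR PHASE PROGRAMS: program `P` at level `l`. -/
def PGoal (E : Env) (P : CP) (l : ℕ) : Prop :=
  ∀ V : Orc, C.Right V l → ∀ q ≤ E.B, ∀ t, TpOk C.p t →
    (den E V P ⟨start l q, t⟩).tp = t ∧
      (C.vl l q → (den E V P ⟨start l q, t⟩).reg 2 = C.pv l q t)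

/-- The kind of a phase: `0` data, `1` hop, `2` tour 0, `3` average 0, `4` majority 0,
`5` products 0, `6` `Z1`, `7` tour 1, `8` loss tour, `9` loss average, `10` `Zst`, `Zs`, `11` tour 2,
`12` average 2, `13` majority 2, `14` products 2, `15` `G`, `16` `H`, `17` `Phi`. -/
def kd (JF JN ph : ℕ) : ℕ :=
  if ph ≤ 4 then ph
  else if ph ≤ 5 + JF then 5
  else if ph ≤ 13 + JF then ph - JF
  else if ph ≤ 14 + 2 * JF then 14
  else if ph = 16 + 2 * JF + 2 * JN then 17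
  else if (ph - (15 + 2 * JF)) % 2 = 0 then 15
  else 16

theorem kd_lt {JF JN ph : ℕ} : kd JF JN ph < 18 := by
  unfold kd
  split_ifs <;> omega

end Ctx

/-- The kind as a function of the level. -/
def kdF : TS.Fn 1 := fun I a => Ctx.kd (stat I 8) (stat I 9) (a 0 % stat I 19)

theorem lf_kdF : TS.LF kdF := by
  have h8 : TS.LF (fun I _ => stat I 8 : TS.Fn 1) := lf_stat (TS.LF.const 8)
  have h9 : TS.LF (fun I _ => stat I 9 : TS.Fn 1) := lf_stat (TS.LF.const 9)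
  have hp : TS.LF (fun I a => a 0 % stat I 19 : TS.Fn 1) :=
    (TS.LF.proj 0).mod (lf_stat (TS.LF.const 19))
  have c : ∀ m : ℕ, TS.LF (fun _ _ => m : TS.Fn 1) := fun m => TS.LF.const m
  unfold kdF Ctx.kd
  exact TS.LF.ite (TS.LFP.le hp (c 4)) hp
    (TS.LF.ite (TS.LFP.le hp ((c 5).add h8)) (c 5)
      (TS.LF.ite (TS.LFP.le hp ((c 13).add h8)) (hp.sub h8)
        (TS.LF.ite (TS.LFP.le hp ((c 14).add ((c 2).mul h8))) (c 14)
          (TS.LF.ite (TS.LFP.eq hp (((c 16).add ((c 2).mul h8)).add ((c 2).mul h9))) (c 17)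
            (TS.LF.ite (TS.LFP.eq ((hp.sub ((c 15).add ((c 2).mul h8))).mod (c 2)) (c 0))
              (c 15) (c 16))))))

variable {C : Ctx} {E : Env}

theorem tok_iff (h : C.EnvOk E) (t : CT.Tape) : TOk E t ↔ TpOk C.p t := by
  unfold TOk TpOk
  rw [h.w, h.L]

/-- Static digits. -/
theorem Ctx.EnvOk.stat (h : C.EnvOk E) {V : Orc} {t : CT.Tape} {j : ℕ}
    (hj : j < stW C.p.S + 2 * C.p.DC + 2 * C.p.lw) : CT.stat (inp E V t) j = E.st j := by
  rw [stat_inp]
  exact min_eq_left (h.stB j hj)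

/-- Static digits, parameters. -/
theorem Ctx.EnvOk.stat64 (h : C.EnvOk E) {V : Orc} {t : CT.Tape} {j : ℕ} (hj : j < 64) :
    CT.stat (inp E V t) j = E.st j :=
  h.stat (by unfold stW; omega)

/-- Answers of lower levels. -/
theorem Ctx.Right.ask (h : C.Hyp E) {V : Orc} {l : ℕ} (hl : l ≤ C.p.S * C.p.m)
    (hV : C.Right V l) {l' q : ℕ} (hl' : l' < l) (hq : C.vl l' q) {t : CT.Tape}
    (ht : TpOk C.p t) : CT.ask (inp E V t) l' q = C.pv l' q t := by
  rw [ask_inp, hV l' hl' q hq t ht]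
  exact min_eq_left (h.vB l' (by omega) q hq t ht)

/-- The stage and the phase of a level. -/
theorem level_div {m s ph : ℕ} (h : ph < m) : (s * m + ph) / m = s := by
  rw [mul_comm, Nat.mul_add_div (by omega), Nat.div_eq_of_lt h, Nat.add_zero]

theorem level_mod {m s ph : ℕ} (h : ph < m) : (s * m + ph) % m = ph := by
  rw [Nat.mul_add_mod_self_right, Nat.mod_eq_of_lt h]

theorem Ctx.pv_eq {s ph q : ℕ} {t : Tp} (h : ph < C.p.m) :
    C.pv (s * C.p.m + ph) q t =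
      phVal C.p C.S C.T C.w (C.dt s) (C.o s 0) (C.o s 1) (C.o s 2) ph q t := by
  unfold Ctx.pv
  rw [level_div h, level_mod h]

theorem Ctx.vl_eq {s ph q : ℕ} (h : ph < C.p.m) :
    C.vl (s * C.p.m + ph) q ↔ vq C.p (C.dt s) ph q := by
  unfold Ctx.vl
  rw [level_div h, level_mod h]

/-- Answers of lower phases of the same stage. -/
theorem Ctx.Right.ask_stage (h : C.Hyp E) {V : Orc} {s ph : ℕ} (hs : s < C.p.S)
    (hph : ph < C.p.m) (hV : C.Right V (s * C.p.m + ph)) {ph' q : ℕ} (hph' : ph' < ph)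
    (hq : vq C.p (C.dt s) ph' q) {t : CT.Tape} (ht : TpOk C.p t) :
    CT.ask (inp E V t) (s * C.p.m + ph') q =
      phVal C.p C.S C.T C.w (C.dt s) (C.o s 0) (C.o s 1) (C.o s 2) ph' q t := by
  have h1 : s * C.p.m + ph ≤ C.p.S * C.p.m := by
    calc s * C.p.m + ph ≤ s * C.p.m + C.p.m := by omega
      _ = (s + 1) * C.p.m := by ring
      _ ≤ C.p.S * C.p.m := Nat.mul_le_mul_right _ hs
  rw [Ctx.Right.ask h h1 hV (by omega) ((C.vl_eq (by omega)).2 hq) ht, C.pv_eq (by omega)]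

/-- Answers of the stage before. -/
theorem Ctx.Right.ask_prev (h : C.Hyp E) {V : Orc} {s ph : ℕ}
    (hl : (s + 1) * C.p.m + ph ≤ C.p.S * C.p.m)
    (hV : C.Right V ((s + 1) * C.p.m + ph)) {ph' q : ℕ} (hph' : ph' < C.p.m)
    (hq : vq C.p (C.dt s) ph' q) {t : CT.Tape} (ht : TpOk C.p t) :
    CT.ask (inp E V t) (s * C.p.m + ph') q =
      phVal C.p C.S C.T C.w (C.dt s) (C.o s 0) (C.o s 1) (C.o s 2) ph' q t := by
  have h1 : s * C.p.m + ph' < (s + 1) * C.p.m + ph := by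
    have : (s + 1) * C.p.m = s * C.p.m + C.p.m := by ring
    omega
  rw [Ctx.Right.ask h hl hV h1 ((C.vl_eq hph').2 hq) ht, C.pv_eq hph']

/-- THE MASTER THEOREM. -/
theorem master (h : C.Hyp E) {ps : List CP} (hlen : ps.length = 18)
    (hps : ∀ l ≤ C.p.S * C.p.m, ∀ (k : ℕ) (hk : k < ps.length),
      k = Ctx.kd C.p.JF C.p.JN (l % C.p.m) → C.PGoal E ps[k] l) :
    Restores E (sel kdF ps) (C.p.S * C.p.m) ∧
      ∀ l ≤ C.p.S * C.p.m, ∀ q ≤ E.B, ∀ t, TpOk C.p t → C.vl l q →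
        val E (sel kdF ps) l q t = C.pv l q t := by
  have key := phases_ind (E := E) (ph := kdF) (ps := ps) (top := C.p.S * C.p.m)
    (Sp := fun l q t v => C.vl l q → v = C.pv l q t)
    (by rw [hlen]; have := h.B18; omega)
    (fun l => Ctx.kd C.p.JF C.p.JN (l % C.p.m))
    (fun V t l _ => by
      have e8 := h.toEnvOk.stat64 (V := V) (t := t) (show 8 < 64 by omega)
      have e9 := h.toEnvOk.stat64 (V := V) (t := t) (show 9 < 64 by omega)
      have e19 := h.toEnvOk.stat64 (V := V) (t := t) (show 19 < 64 by omega)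
      simp only [kdF]
      rw [e8, e9, e19, h.s8, h.s9, h.s19])
    (fun l _ => by rw [hlen]; exact Ctx.kd_lt)
    (fun l hl ih q hq t ht => by
      have hR : C.Right (orc E (sel kdF ps) l) l := by
        intro l' hl' q' hq' t' ht'
        unfold orc
        rw [Nat.unpair_pair]
        simp only [hl', if_true]
        have h1 : q' ≤ E.B := h.qB l' (by omega) q' hq'
        rw [min_eq_left h1]
        exact ih l' hl' q' h1 t' ((tok_iff h.toEnvOk t').2 ht') hq'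
      have h2 := hps l hl (Ctx.kd C.p.JF C.p.JN (l % C.p.m)) (by rw [hlen]; exact Ctx.kd_lt) rfl
        (orc E (sel kdF ps) l) hR q hq t ((tok_iff h.toEnvOk t).1 ht)
      refine ⟨h2.1, fun hv => ?_⟩
      rw [h2.2 hv]
      exact min_eq_left (h.vB l hl q hv t ((tok_iff h.toEnvOk t).1 ht)))
  exact ⟨key.1, fun l hl q hq t ht hv => key.2 l hl q hq t ((tok_iff h.toEnvOk t).2 ht) hv⟩

end Vale.Agent.P313.H899
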