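import Vale.Agent.P313.H899.T0
import Vale.Agent.P313.CT.Lib
import Vale.Agent.P313.BP.Lay

/-!
The phase HOP: the base map and its inverse as functions in `TS.LF`.
-/

namespace Vale.Agent.P313.H899

open Finset CT

/-! ### Congruence -/

theorem pre_congr {f g : ℕ → ℕ} {i : ℕ} (h : ∀ j < i, f j = g j) : pre f i = pre g i :=
  sum_congr rfl fun j hj => h j (mem_range.1 hj)

theorem loc_congr {f g : ℕ → ℕ} {n z : ℕ} (h : ∀ j < n, f j = g j) : loc n f z = loc n g z := by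
  unfold loc
  refine sum_congr rfl fun i hi => ?_
  rw [pre_congr (fun j hj => h j (by rw [mem_range] at hi; omega))]

section congr

variable {n : ℕ} {F G : ℕ → ℕ → ℕ} (h : ∀ v < n, ∀ x < n, F v x = G v x)
include h

theorem rowS_congr {v : ℕ} (hv : v < n) : rowS n F v = rowS n G v :=
  pre_congr fun _ hj => h _ hv _ hj

theorem colS_congr {x : ℕ} (hx : x < n) : colS n F x = colS n G x :=
  pre_congr fun _ hj => h _ hj _ hx

theorem fx_congr {v : ℕ} (hv : v < n) (z : ℕ) : fx n F v z = fx n G v z :=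
  loc_congr fun _ hj => h _ hv _ hj

theorem fr_congr {v z : ℕ} (hv : v < n) (hz : z < rowS n F v) : fr n F v z = fr n G v z := by
  have h1 := fx_lt hz
  have h2 := fx_congr h hv z
  unfold fr
  rw [← h2, pre_congr (f := fun v' => F v' (fx n F v z)) (g := fun v' => G v' (fx n F v z))
    (fun j hj => h _ (by omega) _ h1), pre_congr (f := F v) (g := G v)
    (fun j hj => h _ hv _ (by omega))]

theorem bv_congr {x : ℕ} (hx : x < n) (ρ : ℕ) : bv n F x ρ = bv n G x ρ :=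
  loc_congr fun _ hj => h _ hj _ hx

theorem bz_congr {x ρ : ℕ} (hx : x < n) (hρ : ρ < colS n F x) : bz n F x ρ = bz n G x ρ := by
  have h1 := bv_lt hρ
  have h2 := bv_congr h hx ρ
  unfold bz
  rw [← h2, pre_congr (f := F (bv n F x ρ)) (g := G (bv n F x ρ))
    (fun j hj => h _ h1 _ (by omega)), pre_congr (f := fun v => F v x) (g := fun v => G v x)
    (fun j hj => h _ (by omega) _ hx)]

end congr

/-! ### The functions -/

/-- Entries of the matrix of the stage. -/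
def An (I : TS.Inp) (l v x : ℕ) : ℕ := ask I (l - 1) (Nat.pair 0 (Nat.pair v x))

/-- Weights of the stage. -/
def Cn (I : TS.Inp) (l v : ℕ) : ℕ := ask I (l - 1) (Nat.pair 1 (Nat.pair v 0))

/-- Numbers of tokens going from `v` to `x`. -/
def Fl (I : TS.Inp) (l v x : ℕ) : ℕ :=
  min (stat I 1 ^ (Cn I l v - stat I 2)) (bnd I + 1) * An I l v x

/-- The value of HOP. -/
def hopV (I : TS.Inp) (l dir u w : ℕ) : ℕ :=
  if dir = 0 then Nat.pair (fx (stat I 0) (Fl I l) u w) (fr (stat I 0) (Fl I l) u w)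
  else if colS (stat I 0) (Fl I l) u ≤ w then 0
  else Nat.pair (bv (stat I 0) (Fl I l) u w) (bz (stat I 0) (Fl I l) u w) + 1

/-- The function of HOP. -/
def hopF : TS.Fn 2 := fun I a =>
  hopV I (a 0) (Nat.unpair (a 1)).1 (Nat.unpair (Nat.unpair (a 1)).2).1
    (Nat.unpair (Nat.unpair (a 1)).2).2

/-- The program of HOP. -/
def hopP : CP := .set 2 2 hopF ![0, 1]

section lf

variable {k : ℕ}

theorem lf_sumC {n : TS.Fn k} {g : TS.Inp → (Fin k → ℕ) → ℕ → ℕ} (hn : TS.LF n)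
    (hg : TS.LF (fun x b => g x (Fin.tail b) (b 0) : TS.Fn (k + 1))) :
    TS.LF (fun x a => ∑ i ∈ range (n x a), g x a i) :=
  (TS.LF.sum hg hn).congr fun x a => by simp only [Fin.tail_cons, Fin.cons_zero]

theorem lf_comp3 {F : TS.Inp → ℕ → ℕ → ℕ → ℕ} {f g h : TS.Fn k}
    (hF : TS.LF (fun x a => F x (a 0) (a 1) (a 2) : TS.Fn 3)) (hf : TS.LF f) (hg : TS.LF g)
    (hh : TS.LF h) : TS.LF (fun x a => F x (f x a) (g x a) (h x a)) :=
  TS.LF.comp (m := 3) (g := ![f, g, h]) hF (fun i => by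
    fin_cases i
    · exact hf
    · exact hg
    · exact hh)

theorem lf_comp4 {F : TS.Inp → ℕ → ℕ → ℕ → ℕ → ℕ} {f g h u : TS.Fn k}
    (hF : TS.LF (fun x a => F x (a 0) (a 1) (a 2) (a 3) : TS.Fn 4)) (hf : TS.LF f)
    (hg : TS.LF g) (hh : TS.LF h) (hu : TS.LF u) :
    TS.LF (fun x a => F x (f x a) (g x a) (h x a) (u x a)) :=
  TS.LF.comp (m := 4) (g := ![f, g, h, u]) hF (fun i => by
    fin_cases i
    · exact hf
    · exact hg
    · exact hh
    · exact hu)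

theorem lf_An {f g h : TS.Fn k} (hf : TS.LF f) (hg : TS.LF g) (hh : TS.LF h) :
    TS.LF (fun I a => An I (f I a) (g I a) (h I a)) :=
  lf_ask (hf.sub (TS.LF.const 1)) (lf_pair (TS.LF.const 0) (lf_pair hg hh))

theorem lf_Cn {f g : TS.Fn k} (hf : TS.LF f) (hg : TS.LF g) :
    TS.LF (fun I a => Cn I (f I a) (g I a)) :=
  lf_ask (hf.sub (TS.LF.const 1)) (lf_pair (TS.LF.const 1) (lf_pair hg (TS.LF.const 0)))

theorem lf_Fl {f g h : TS.Fn k} (hf : TS.LF f) (hg : TS.LF g) (hh : TS.LF h) :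
    TS.LF (fun I a => Fl I (f I a) (g I a) (h I a)) :=
  (TS.LF.powMin (lf_stat (TS.LF.const 1)) ((lf_Cn hf hg).sub (lf_stat (TS.LF.const 2)))
    lf_bnd).mul (lf_An hf hg hh)

theorem lf_preR {f g h : TS.Fn k} (hf : TS.LF f) (hg : TS.LF g) (hh : TS.LF h) :
    TS.LF (fun I a => pre (Fl I (f I a) (g I a)) (h I a)) :=
  lf_sumC hh (lf_Fl hf.weak hg.weak (TS.LF.proj 0))

theorem lf_preC {f g h : TS.Fn k} (hf : TS.LF f) (hg : TS.LF g) (hh : TS.LF h) :
    TS.LF (fun I a => pre (fun v => Fl I (f I a) v (g I a)) (h I a)) :=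
  lf_sumC hh (lf_Fl hf.weak (TS.LF.proj 0) hg.weak)

theorem lf_fx {f g h : TS.Fn k} (hf : TS.LF f) (hg : TS.LF g) (hh : TS.LF h) :
    TS.LF (fun I a => fx (stat I 0) (Fl I (f I a)) (g I a) (h I a)) :=
  lf_sumC (lf_stat (TS.LF.const 0)) (TS.LF.toInd (TS.LFP.le
    (lf_preR hf.weak hg.weak (TS.LF.proj 0).succ) hh.weak))

theorem lf_bv {f g h : TS.Fn k} (hf : TS.LF f) (hg : TS.LF g) (hh : TS.LF h) :
    TS.LF (fun I a => bv (stat I 0) (Fl I (f I a)) (g I a) (h I a)) :=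
  lf_sumC (lf_stat (TS.LF.const 0)) (TS.LF.toInd (TS.LFP.le
    (lf_preC hf.weak hg.weak (TS.LF.proj 0).succ) hh.weak))

theorem lf_fr {f g h : TS.Fn k} (hf : TS.LF f) (hg : TS.LF g) (hh : TS.LF h) :
    TS.LF (fun I a => fr (stat I 0) (Fl I (f I a)) (g I a) (h I a)) :=
  (lf_preC hf (lf_fx hf hg hh) hg).add (hh.sub (lf_preR hf hg (lf_fx hf hg hh)))

theorem lf_bz {f g h : TS.Fn k} (hf : TS.LF f) (hg : TS.LF g) (hh : TS.LF h) :
    TS.LF (fun I a => bz (stat I 0) (Fl I (f I a)) (g I a) (h I a)) :=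
  (lf_preR hf (lf_bv hf hg hh) hg).add (hh.sub (lf_preC hf hg (lf_bv hf hg hh)))

theorem lf_colS {f g : TS.Fn k} (hf : TS.LF f) (hg : TS.LF g) :
    TS.LF (fun I a => colS (stat I 0) (Fl I (f I a)) (g I a)) :=
  lf_preC hf hg (lf_stat (TS.LF.const 0))

theorem lf_hopV {f g h u : TS.Fn k} (hf : TS.LF f) (hg : TS.LF g) (hh : TS.LF h)
    (hu : TS.LF u) : TS.LF (fun I a => hopV I (f I a) (g I a) (h I a) (u I a)) := by
  unfold hopV
  exact TS.LF.ite (TS.LFP.eq hg (TS.LF.const 0)) (lf_pair (lf_fx hf hh hu) (lf_fr hf hh hu))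
    (TS.LF.ite (TS.LFP.le (lf_colS hf hh) hu) (TS.LF.const 0)
      (lf_pair (lf_bv hf hh hu) (lf_bz hf hh hu)).succ)

end lf

theorem lf_hopF : TS.LF hopF :=
  lf_hopV (TS.LF.proj 0) (lf_unpair1 (TS.LF.proj 1)) (lf_unpair1 (lf_unpair2 (TS.LF.proj 1)))
    (lf_unpair2 (lf_unpair2 (TS.LF.proj 1)))

theorem hopP_ok : hopP.Ok := lf_hopF

/-! ### Values -/

/-- The numbers of tokens going from `v` to `x`, for the data `d`. -/
def FD (p : BP.Par) (d : BP.SD) (v x : ℕ) : ℕ := p.q ^ (d.c v - p.b) * d.A v x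

/-- The numbers of tokens. -/
def HD (p : BP.Par) (d : BP.SD) (v : ℕ) : ℕ := p.q ^ d.c v

theorem colS_FD (p : BP.Par) (d : BP.SD) (x : ℕ) : colS p.n (FD p d) x = BP.tot p d x := rfl

theorem rowS_FD {p : BP.Par} {d : BP.SD} {v : ℕ} (hA : ∑ x ∈ range p.n, d.A v x = p.q ^ p.b)
    (hc : p.b ≤ d.c v) : rowS p.n (FD p d) v = HD p d v := by
  unfold rowS pre FD HD
  rw [← mul_sum, hA, ← pow_add]
  congr 1
  omega

/-- The data are answered correctly by level `l - 1`. -/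
structure DataOk (p : BP.Par) (d : BP.SD) (I : TS.Inp) (l : ℕ) : Prop where
  n : stat I 0 = p.n
  q : stat I 1 = p.q
  b : stat I 2 = p.b
  A : ∀ v < p.n, ∀ x < p.n, ask I (l - 1) (Nat.pair 0 (Nat.pair v x)) = d.A v x
  c : ∀ v < p.n, ask I (l - 1) (Nat.pair 1 (Nat.pair v 0)) = d.c v
  B : ∀ v < p.n, p.q ^ (d.c v - p.b) ≤ bnd I

variable {p : BP.Par} {d : BP.SD} {I : TS.Inp} {l : ℕ}

theorem DataOk.Fl_eq (h : DataOk p d I l) : ∀ v < p.n, ∀ x < p.n, Fl I l v x = FD p d v x := by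
  intro v hv x hx
  unfold Fl FD Cn An
  rw [h.c v hv, h.A v hv x hx, h.q, h.b, min_eq_left]
  have := h.B v hv
  omega

/-- Forward hop. -/
theorem hopF_fwd (h : DataOk p d I l) {v z : ℕ} (hv : v < p.n) (hz : z < rowS p.n (FD p d) v) :
    hopF I ![l, Nat.pair 0 (Nat.pair v z)] =
      Nat.pair (fx p.n (FD p d) v z) (fr p.n (FD p d) v z) := by
  have h1 := h.Fl_eq
  rw [← rowS_congr h1 hv] at hz
  simp only [hopF, Matrix.cons_val_zero, Matrix.cons_val_one, Nat.unpair_pair, hopV, if_pos, h.n]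
  rw [fx_congr h1 hv, fr_congr h1 hv hz]

/-- Backward hop. -/
theorem hopF_bwd (h : DataOk p d I l) {x : ℕ} (ρ : ℕ) (hx : x < p.n) :
    hopF I ![l, Nat.pair 1 (Nat.pair x ρ)] =
      if colS p.n (FD p d) x ≤ ρ then 0
      else Nat.pair (bv p.n (FD p d) x ρ) (bz p.n (FD p d) x ρ) + 1 := by
  have h1 := h.Fl_eq
  simp only [hopF, Matrix.cons_val_zero, Matrix.cons_val_one, Nat.unpair_pair, hopV, h.n,
    one_ne_zero, if_false]
  rw [colS_congr h1 hx]
  split_ifs with h2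
  · rfl
  · rw [bv_congr h1 hx, bz_congr h1 hx (by rw [colS_congr h1 hx]; omega)]

/-- The program HOP. -/
theorem den_hopP {E : Env} {V : Orc} {t : CT.Tape} {l Q : ℕ} :
    (den E V hopP ⟨start l Q, t⟩).tp = t ∧
      (den E V hopP ⟨start l Q, t⟩).reg 2 = min (hopF (inp E V t) ![l, Q]) E.B := by
  refine ⟨rfl, ?_⟩
  have e : (fun j : Fin 2 => start l Q ((![0, 1] : Fin 2 → ℕ) j)) = ![l, Q] := by
    funext j
    fin_cases j <;> rfl
  simp only [hopP, den, St.set_reg, Function.update_self]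
  rw [e]

end Vale.Agent.P313.H899
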