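import Mathlib

/-!
The base map on tokens: tokens `(v, z)`, `z < H v`, are sent to the states `x` in the order of `z`,
with prescribed numbers `F v x`; the tokens going to `x` are ranked, and the rank `ρ` is divided
with remainder by `H x`.
-/

namespace Vale.Agent.P313.H899

open Finset

/-- Prefix sums. -/
def pre (f : ℕ → ℕ) (i : ℕ) : ℕ := ∑ j ∈ range i, f j

/-- The place of `z` among the intervals of lengths `f 0, f 1, …`. -/
def loc (n : ℕ) (f : ℕ → ℕ) (z : ℕ) : ℕ :=
  ∑ i ∈ range n, if pre f (i + 1) ≤ z then 1 else 0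

@[simp] theorem pre_zero (f : ℕ → ℕ) : pre f 0 = 0 := by simp [pre]

theorem pre_succ (f : ℕ → ℕ) (i : ℕ) : pre f (i + 1) = pre f i + f i := by
  simp [pre, sum_range_succ]

theorem pre_mono (f : ℕ → ℕ) : Monotone (pre f) :=
  monotone_nat_of_le_succ fun i => by rw [pre_succ]; omega

theorem loc_eq {n : ℕ} {f : ℕ → ℕ} {z i : ℕ} (hi : i < n) (h1 : pre f i ≤ z)
    (h2 : z < pre f (i + 1)) : loc n f z = i := by
  unfold loc
  have h : ∀ j, (pre f (j + 1) ≤ z) ↔ j < i := by
    intro j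
    constructor
    · intro hj
      by_contra hc
      have := pre_mono f (show i + 1 ≤ j + 1 by omega)
      omega
    · intro hj
      have := pre_mono f (show j + 1 ≤ i by omega)
      omega
  simp_rw [h]
  rw [← sum_filter, sum_const, smul_eq_mul, mul_one]
  have : (range n).filter (fun j => j < i) = range i := by
    ext j
    simp only [mem_filter, mem_range]
    omega
  rw [this, card_range]

theorem exists_loc {n : ℕ} {f : ℕ → ℕ} {z : ℕ} (h : z < pre f n) :
    ∃ i < n, pre f i ≤ z ∧ z < pre f (i + 1) := by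
  induction n with
  | zero => simp at h
  | succ n ih =>
    by_cases hz : z < pre f n
    · obtain ⟨i, hi, h1, h2⟩ := ih hz
      exact ⟨i, by omega, h1, h2⟩
    · exact ⟨n, by omega, by omega, h⟩

theorem loc_lt {n : ℕ} {f : ℕ → ℕ} {z : ℕ} (h : z < pre f n) : loc n f z < n := by
  obtain ⟨i, hi, h1, h2⟩ := exists_loc h
  rwa [loc_eq hi h1 h2]

theorem loc_le {n : ℕ} {f : ℕ → ℕ} {z : ℕ} (h : z < pre f n) : pre f (loc n f z) ≤ z := by
  obtain ⟨i, hi, h1, h2⟩ := exists_loc h
  rwa [loc_eq hi h1 h2]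

theorem lt_loc {n : ℕ} {f : ℕ → ℕ} {z : ℕ} (h : z < pre f n) :
    z < pre f (loc n f z + 1) := by
  obtain ⟨i, hi, h1, h2⟩ := exists_loc h
  rwa [loc_eq hi h1 h2]

theorem loc_bound (n : ℕ) (f : ℕ → ℕ) (z : ℕ) : loc n f z ≤ n := by
  unfold loc
  calc _ ≤ ∑ i ∈ range n, 1 := sum_le_sum fun i _ => by split_ifs <;> omega
    _ = n := by simp

section matrix

variable (n : ℕ) (F : ℕ → ℕ → ℕ)

/-- The number of tokens of `v`. -/
def rowS (v : ℕ) : ℕ := pre (F v) n

/-- The number of tokens which go to `x`. -/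
def colS (x : ℕ) : ℕ := pre (fun v => F v x) n

/-- The state where the token `(v, z)` goes. -/
def fx (v z : ℕ) : ℕ := loc n (F v) z

/-- The rank of the token `(v, z)` among the tokens which go to the same state. -/
def fr (v z : ℕ) : ℕ := pre (fun v' => F v' (fx n F v z)) v + (z - pre (F v) (fx n F v z))

/-- The state of the token with rank `ρ` among the tokens going to `x`. -/
def bv (x ρ : ℕ) : ℕ := loc n (fun v => F v x) ρ

/-- The number of the token with rank `ρ` among the tokens going to `x`. -/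
def bz (x ρ : ℕ) : ℕ := pre (F (bv n F x ρ)) x + (ρ - pre (fun v => F v x) (bv n F x ρ))

variable {n F}

theorem fx_lt {v z : ℕ} (hz : z < rowS n F v) : fx n F v z < n := loc_lt hz

theorem fr_bounds {v z : ℕ} (hz : z < rowS n F v) :
    pre (fun v' => F v' (fx n F v z)) v ≤ fr n F v z ∧
      fr n F v z < pre (fun v' => F v' (fx n F v z)) (v + 1) := by
  have h1 := loc_le hz
  have h2 := lt_loc hz
  rw [pre_succ] at h2
  rw [pre_succ]
  unfold fr fx
  constructor
  · omega
  · omega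

theorem fr_lt {v z : ℕ} (hv : v < n) (hz : z < rowS n F v) : fr n F v z < colS n F (fx n F v z) := by
  have h1 := (fr_bounds hz).2
  have h2 := pre_mono (fun v' => F v' (fx n F v z)) (show v + 1 ≤ n by omega)
  unfold colS
  omega

theorem bv_fr {v z : ℕ} (hv : v < n) (hz : z < rowS n F v) :
    bv n F (fx n F v z) (fr n F v z) = v :=
  loc_eq hv (fr_bounds hz).1 (fr_bounds hz).2

theorem bz_fr {v z : ℕ} (hv : v < n) (hz : z < rowS n F v) :
    bz n F (fx n F v z) (fr n F v z) = z := by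
  unfold bz
  rw [bv_fr hv hz]
  have h1 : pre (F v) (fx n F v z) ≤ z := loc_le hz
  unfold fr
  omega

theorem bv_lt {x ρ : ℕ} (hρ : ρ < colS n F x) : bv n F x ρ < n := loc_lt hρ

theorem bz_bounds {x ρ : ℕ} (hρ : ρ < colS n F x) :
    pre (F (bv n F x ρ)) x ≤ bz n F x ρ ∧ bz n F x ρ < pre (F (bv n F x ρ)) (x + 1) := by
  have h1 := loc_le hρ
  have h2 := lt_loc hρ
  rw [pre_succ] at h2
  rw [pre_succ]
  unfold bz bv
  constructor
  · omega
  · omega

theorem bz_lt {x ρ : ℕ} (hx : x < n) (hρ : ρ < colS n F x) :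
    bz n F x ρ < rowS n F (bv n F x ρ) := by
  have h1 := (bz_bounds hρ).2
  have h2 := pre_mono (F (bv n F x ρ)) (show x + 1 ≤ n by omega)
  unfold rowS
  omega

theorem fx_b {x ρ : ℕ} (hx : x < n) (hρ : ρ < colS n F x) :
    fx n F (bv n F x ρ) (bz n F x ρ) = x :=
  loc_eq hx (bz_bounds hρ).1 (bz_bounds hρ).2

theorem fr_b {x ρ : ℕ} (hx : x < n) (hρ : ρ < colS n F x) :
    fr n F (bv n F x ρ) (bz n F x ρ) = ρ := by
  unfold fr
  rw [fx_b hx hρ]
  have h1 : pre (fun v => F v x) (bv n F x ρ) ≤ ρ := loc_le hρ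
  unfold bz
  omega

end matrix

section base

variable (n : ℕ) (F : ℕ → ℕ → ℕ) (H : ℕ → ℕ)

/-- The base map, state. -/
def upx (v z : ℕ) : ℕ := fx n F v z

/-- The base map, number. -/
def upz (v z : ℕ) : ℕ := fr n F v z % H (fx n F v z)

/-- The index of `(v, z)` among the children of its image. -/
def ix (v z : ℕ) : ℕ := fr n F v z / H (fx n F v z)

/-- The number of children of `(x, y)`. -/
def nc (x y : ℕ) : ℕ := (colS n F x - y + (H x - 1)) / H x

/-- The `j`-th child of `(x, y)`, state. -/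
def dnv (x y j : ℕ) : ℕ := bv n F x (y + j * H x)

/-- The `j`-th child of `(x, y)`, number. -/
def dnz (x y j : ℕ) : ℕ := bz n F x (y + j * H x)

variable {n F H}

theorem lt_nc {x y j : ℕ} (hH : 0 < H x) : j < nc n F H x y ↔ y + j * H x < colS n F x := by
  unfold nc
  rw [← Nat.succ_le_iff, Nat.le_div_iff_mul_le hH, Nat.succ_mul]
  omega

theorem nc_le (x y : ℕ) : nc n F H x y ≤ colS n F x / H x + 1 := by
  rcases Nat.eq_zero_or_pos (H x) with h | h
  · simp [nc, h]
  · by_contra hc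
    have h1 : colS n F x / H x + 1 < nc n F H x y := by omega
    rw [lt_nc h] at h1
    have h2 := Nat.div_add_mod (colS n F x) (H x)
    have h3 := Nat.mod_lt (colS n F x) h
    nlinarith

theorem upx_lt {v z : ℕ} (hz : z < rowS n F v) : upx n F v z < n := fx_lt hz

theorem upz_lt {v z : ℕ} (hH : 0 < H (fx n F v z)) : upz n F H v z < H (upx n F v z) :=
  Nat.mod_lt _ hH

theorem ix_lt {v z : ℕ} (hv : v < n) (hz : z < rowS n F v) (hH : 0 < H (fx n F v z)) :
    ix n F H v z < nc n F H (upx n F v z) (upz n F H v z) := by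
  rw [lt_nc (show 0 < H (upx n F v z) from hH)]
  unfold upx upz ix
  have h1 := fr_lt hv hz
  have h2 := Nat.mod_add_div (fr n F v z) (H (fx n F v z))
  rw [mul_comm] at h2
  omega

theorem rank_ix {v z : ℕ} : upz n F H v z + ix n F H v z * H (upx n F v z) = fr n F v z := by
  unfold upz ix upx
  rw [mul_comm]
  exact Nat.mod_add_div _ _

theorem dnv_up {v z : ℕ} (hv : v < n) (hz : z < rowS n F v) :
    dnv n F H (upx n F v z) (upz n F H v z) (ix n F H v z) = v := by
  unfold dnv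
  rw [rank_ix]
  exact bv_fr hv hz

theorem dnz_up {v z : ℕ} (hv : v < n) (hz : z < rowS n F v) :
    dnz n F H (upx n F v z) (upz n F H v z) (ix n F H v z) = z := by
  unfold dnz
  rw [rank_ix]
  exact bz_fr hv hz

theorem dnv_lt {x y j : ℕ} (hH : 0 < H x) (hj : j < nc n F H x y) : dnv n F H x y j < n :=
  bv_lt ((lt_nc hH).1 hj)

theorem dnz_lt {x y j : ℕ} (hx : x < n) (hH : 0 < H x) (hj : j < nc n F H x y) :
    dnz n F H x y j < rowS n F (dnv n F H x y j) :=
  bz_lt hx ((lt_nc hH).1 hj)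

theorem upx_dn {x y j : ℕ} (hx : x < n) (hH : 0 < H x) (hj : j < nc n F H x y) :
    upx n F (dnv n F H x y j) (dnz n F H x y j) = x :=
  fx_b hx ((lt_nc hH).1 hj)

theorem upz_dn {x y j : ℕ} (hx : x < n) (hy : y < H x) (hj : j < nc n F H x y) :
    upz n F H (dnv n F H x y j) (dnz n F H x y j) = y := by
  have hH : 0 < H x := by omega
  have h := (lt_nc hH).1 hj
  unfold upz dnv dnz
  rw [fx_b hx h, fr_b hx h, Nat.add_mul_mod_self_right, Nat.mod_eq_of_lt hy]

theorem ix_dn {x y j : ℕ} (hx : x < n) (hy : y < H x) (hj : j < nc n F H x y) :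
    ix n F H (dnv n F H x y j) (dnz n F H x y j) = j := by
  have hH : 0 < H x := by omega
  have h := (lt_nc hH).1 hj
  unfold ix dnv dnz
  rw [fx_b hx h, fr_b hx h, Nat.add_mul_div_right _ _ hH, Nat.div_eq_of_lt hy, Nat.zero_add]

end base

section tokens

/-- Tokens. -/
abbrev Tok (n : ℕ) (H : ℕ → ℕ) : Type := Σ w : Fin n, Fin (H w)

variable {n : ℕ} {F : ℕ → ℕ → ℕ} {H : ℕ → ℕ}

/-- The base map on tokens. -/
def T0 (hF : ∀ v < n, rowS n F v = H v) (hH : ∀ v < n, 0 < H v) (u : Tok n H) : Tok n H :=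
  ⟨⟨upx n F u.1 u.2, upx_lt (by rw [hF _ u.1.2]; exact u.2.2)⟩,
    ⟨upz n F H u.1 u.2, upz_lt (hH _ (fx_lt (by rw [hF _ u.1.2]; exact u.2.2)))⟩⟩

variable (hF : ∀ v < n, rowS n F v = H v) (hH : ∀ v < n, 0 < H v)

theorem T0_fst (u : Tok n H) : ((T0 hF hH u).1 : ℕ) = upx n F u.1 u.2 := rfl

theorem T0_snd (u : Tok n H) : ((T0 hF hH u).2 : ℕ) = upz n F H u.1 u.2 := rfl

theorem tok_ext {u u' : Tok n H} (h1 : (u.1 : ℕ) = u'.1) (h2 : (u.2 : ℕ) = u'.2) : u = u' := by
  obtain ⟨w, z⟩ := u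
  obtain ⟨w', z'⟩ := u'
  have h3 : w = w' := Fin.ext h1
  subst h3
  have h4 : z = z' := Fin.ext h2
  rw [h4]

/-- The children of a token. -/
def child (y : Tok n H) (j : Fin (nc n F H y.1 y.2)) : Tok n H :=
  ⟨⟨dnv n F H y.1 y.2 j, dnv_lt (hH _ y.1.2) j.2⟩,
    ⟨dnz n F H y.1 y.2 j, by
      have h := dnz_lt y.1.2 (hH _ y.1.2) j.2
      rwa [hF _ (dnv_lt (hH _ y.1.2) j.2)] at h⟩⟩

theorem T0_child (y : Tok n H) (j : Fin (nc n F H y.1 y.2)) :
    T0 hF hH (child hF hH y j) = y :=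
  tok_ext (upx_dn y.1.2 (hH _ y.1.2) j.2) (upz_dn y.1.2 y.2.2 j.2)

/-- The children of `y` are the tokens sent to `y`. -/
def childEquiv (y : Tok n H) : Fin (nc n F H y.1 y.2) ≃ {u : Tok n H // T0 hF hH u = y} where
  toFun j := ⟨child hF hH y j, T0_child hF hH y j⟩
  invFun u := ⟨ix n F H u.1.1 u.1.2, by
    obtain ⟨u, rfl⟩ := u
    exact ix_lt u.1.2 (by rw [hF _ u.1.2]; exact u.2.2)
      (hH _ (fx_lt (by rw [hF _ u.1.2]; exact u.2.2)))⟩
  left_inv j := Fin.ext (ix_dn y.1.2 y.2.2 j.2)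
  right_inv u := by
    obtain ⟨u, rfl⟩ := u
    refine Subtype.ext (tok_ext ?_ ?_)
    · exact dnv_up u.1.2 (by rw [hF _ u.1.2]; exact u.2.2)
    · exact dnz_up u.1.2 (by rw [hF _ u.1.2]; exact u.2.2)

/-- The number of tokens sent to `y`. -/
theorem card_fibre (y : Tok n H) :
    #{u : Tok n H | T0 hF hH u = y} = nc n F H y.1 y.2 := by
  rw [← Fintype.card_subtype, ← Fintype.card_congr (childEquiv hF hH y), Fintype.card_fin]

/-- The fibres are balanced. -/
theorem card_fibre_le (y : Tok n H) :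
    #{u : Tok n H | T0 hF hH u = y} ≤ colS n F y.1 / H y.1 + 1 := by
  rw [card_fibre]
  exact nc_le _ _

/-- The number of tokens of `v` sent to the state `x`. -/
theorem card_go (v x : Fin n) :
    #{u : Tok n H | u.1 = v ∧ (T0 hF hH u).1 = x} = F v x := by
  have h1 : ∀ k < F v x, fx n F v (pre (F v) x + k) = x := by
    intro k hk
    refine loc_eq x.2 (by omega) ?_
    rw [pre_succ]
    omega
  have h2 : ∀ k < F v x, pre (F v) x + k < H v := by
    intro k hk
    rw [← hF v v.2]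
    have h3 := pre_mono (F v) (show (x : ℕ) + 1 ≤ n from x.2)
    rw [pre_succ] at h3
    unfold rowS
    omega
  rw [← Fintype.card_fin (F v x)]
  symm
  rw [← Finset.card_univ]
  refine Finset.card_bij (fun k _ => (⟨v, ⟨pre (F v) x + k, h2 k k.2⟩⟩ : Tok n H)) ?_ ?_ ?_
  · intro k _
    rw [mem_filter_univ]
    exact ⟨rfl, Fin.ext (h1 k k.2)⟩
  · intro k _ k' _ h
    have h3 := congrArg (fun u : Tok n H => (u.2 : ℕ)) h
    simp only at h3
    exact Fin.ext (by omega)
  · intro u hu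
    rw [mem_filter_univ] at hu
    obtain ⟨hu1, hu2⟩ := hu
    obtain ⟨w, z⟩ := u
    simp only at hu1
    subst hu1
    have h3 : fx n F w z = x := congrArg Fin.val hu2
    have hz : (z : ℕ) < rowS n F w := by rw [hF _ w.2]; exact z.2
    have h4 : pre (F w) (fx n F w z) ≤ z := loc_le hz
    have h5 : (z : ℕ) < pre (F w) (fx n F w z + 1) := lt_loc hz
    rw [h3] at h4 h5
    rw [pre_succ] at h5
    refine ⟨⟨z - pre (F w) x, by omega⟩, mem_univ _, tok_ext rfl ?_⟩
    simp only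
    omega

end tokens

end Vale.Agent.P313.H899
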