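import Vale.Agent.P313.H899.Hop
import Vale.Agent.P313.H899.Master

/-!
The goal of the phase HOP.
-/

namespace Vale.Agent.P313.H899

open Finset CT BP

variable {C : Ctx} {E : Env}

theorem hop_goal (h : C.Hyp E) (hqc : C.p.q ^ C.p.cmax ≤ E.B) (hq1 : 1 ≤ C.p.q) {s : ℕ}
    (hs : s < C.p.S) : C.PGoal E hopP (s * C.p.m + phHop) := by
  have hm : phHop < C.p.m := by unfold phHop Par2.m nph; omega
  have hm0 : phData < C.p.m := by unfold phData Par2.m nph; omega
  intro V hV q hq t ht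
  have h1 := den_hopP (E := E) (V := V) (t := t) (l := s * C.p.m + phHop) (Q := q)
  refine ⟨h1.1, fun hv => ?_⟩
  rw [h1.2, C.pv_eq hm]
  rw [C.vl_eq hm] at hv
  have hd := h.dtOk s hs.le
  have h2 : hopF (inp E V t) ![s * C.p.m + phHop, q] =
      phVal C.p C.S C.T C.w (C.dt s) (C.o s 0) (C.o s 1) (C.o s 2) phHop q t := by
    refine hop_phVal (t := t) (t' := t) ?_ ?_ ?_ (fun q' hq' => ?_) (fun v hv' => ?_) hd.row hd.cb
      hv
    · rw [h.toEnvOk.stat64 (by omega), h.s0]
    · rw [h.toEnvOk.stat64 (by omega), h.s1]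
    · rw [h.toEnvOk.stat64 (by omega), h.s2]
    · have := Ctx.Right.ask_stage h hs hm hV (show phData < phHop by decide) hq' ht
      have e : s * C.p.m + phHop - 1 = s * C.p.m + phData := rfl
      rw [e]
      exact this
    · rw [bnd_inp]
      refine le_trans (Nat.pow_le_pow_right hq1 ?_) hqc
      have := hd.cm v hv'
      omega
  rw [h2]
  refine min_eq_left ?_
  rw [← C.pv_eq hm]
  refine h.vB _ ?_ q ((C.vl_eq hm).2 hv) t ht
  calc s * C.p.m + phHop ≤ s * C.p.m + C.p.m := by omega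
    _ = (s + 1) * C.p.m := by ring
    _ ≤ C.p.S * C.p.m := Nat.mul_le_mul_right _ hs

end Vale.Agent.P313.H899
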