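import Vale.Agent.P313.H899.Bounds

/-!
Canonical values are small.
-/

namespace Vale.Agent.P313.H899

open Finset CT BP

variable {C : Ctx} {M : ℕ}

theorem tpOk_shT (hq : 1 ≤ C.p.q) {t : Tp} (ht : TpOk C.p t) (j σ : ℕ) :
    TpOk C.p (shT C.p C.w j σ t) := by
  constructor
  · intro i hi
    unfold shT
    rw [if_pos hi]
    exact Nat.mod_lt _ (by omega)
  · intro i hi
    unfold shT
    rw [if_neg (by omega)]
    exact ht.2 i hi

theorem upN_le {p : Par2} {o H s M : ℕ} (hD : p.D ≤ M) (hT : p.Th ≤ M) (hQ : p.Q ≤ M)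
    (ho : o ≤ M) (hH : H ≤ M) {k : ℕ} (hs : s ≤ M ^ k) (hM : 4 ≤ M) (hk : 3 ≤ k) :
    upN p o H s ≤ M ^ (k + 3) := by
  unfold upN
  have h1 : p.D * p.Th * s ≤ M * M * M ^ k := Nat.mul_le_mul (Nat.mul_le_mul hD hT) hs
  have h2 : o * (p.Q * H) ≤ M * (M * M) := Nat.mul_le_mul ho (Nat.mul_le_mul hQ hH)
  have h3 : M * (M * M) ≤ M ^ k := by
    calc M * (M * M) = M ^ 3 := by ring
      _ ≤ M ^ k := Nat.pow_le_pow_right (by omega) hk
  have h4 : (p.D * p.Th * s + o * (p.Q * H)) / (p.D * (p.Q * H)) ≤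
      p.D * p.Th * s + o * (p.Q * H) := Nat.div_le_self _ _
  have h5 : 1 ≤ M ^ k := Nat.one_le_pow _ _ (by omega)
  have e1 : M * M * M ^ k = M ^ 2 * M ^ k := by ring
  have e2 : M ^ (k + 3) = M * (M ^ 2 * M ^ k) := by ring
  have h6 : 16 ≤ M ^ 2 := by nlinarith
  have h7 : 16 * M ^ k ≤ M ^ 2 * M ^ k := Nat.mul_le_mul_right _ h6
  have h8 : 4 * (M ^ 2 * M ^ k) ≤ M * (M ^ 2 * M ^ k) := Nat.mul_le_mul_right _ hM
  omega

theorem up_le_of {p : Par} {o M : ℕ} {x : ℝ} (hx : x ≤ 1) (hT : p.Th ≤ M) (ho : o ≤ M)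
    (hM : 4 ≤ M) : up p o x ≤ M ^ 2 := by
  unfold up
  have h1 : (o : ℝ) / p.D ≤ o := by
    rcases Nat.eq_zero_or_pos p.D with h | h
    · simp [h]
    · exact div_le_self (Nat.cast_nonneg _) (by exact_mod_cast h)
  have h2 : (p.Th : ℝ) * x + (o : ℝ) / p.D ≤ ((M + M : ℕ) : ℝ) := by
    have h3 : (p.Th : ℝ) * x ≤ p.Th := by
      have : (0 : ℝ) ≤ p.Th := Nat.cast_nonneg _
      nlinarith
    have h4 : (p.Th : ℝ) ≤ M := by exact_mod_cast hT
    have h5 : (o : ℝ) ≤ M := by exact_mod_cast ho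
    push_cast
    linarith
  have h6 := Nat.floor_le_floor h2
  rw [Nat.floor_natCast] at h6
  nlinarith

theorem flow_le (hB : C.Base M) {s : ℕ} (hs : s < C.p.S) (hc : ∀ v < C.p.n, (C.dt s).c v ≤ C.p.cmax)
    {Z : ℕ → Prop} {a v x : ℕ} (ha : a < C.p.r) (hx : x < C.p.n) {t : Tp} (ht : TpOk C.p t) :
    flow C.p C.T (C.dt s) Z a v x t ≤ M ^ 2 := by
  unfold flow
  calc _ ≤ ∑ z ∈ range (C.p.q ^ (C.dt s).c x), M := by
        refine sum_le_sum fun z hz => ?_
        rw [mem_range] at hz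
        unfold TSem.cnt
        split_ifs with h1
        · exact (hB.tC s hs Z a ha v x hx z hz t ht h1).trans hB.Lam
        · exact Nat.zero_le _
    _ = C.p.q ^ (C.dt s).c x * M := by simp
    _ ≤ M * M := Nat.mul_le_mul_right _
        ((Nat.pow_le_pow_right hB.q1 (hc x hx)).trans hB.qc)
    _ = M ^ 2 := by ring

theorem lossT_le (hB : C.Base M) {s : ℕ} (hs : s < C.p.S)
    (hc : ∀ v < C.p.n, (C.dt s).c v ≤ C.p.cmax) {Z : ℕ → Prop} {x : ℕ} (hx : x < C.p.n) {t : Tp}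
    (ht : TpOk C.p t) : lossT C.p C.T (C.dt s) Z x t ≤ M ^ 4 := by
  unfold lossT
  calc _ ≤ ∑ a ∈ range C.p.r, ∑ z ∈ range (C.p.q ^ (C.dt s).c x), M ^ 2 := by
        refine sum_le_sum fun a ha => sum_le_sum fun z hz => ?_
        rw [mem_range] at ha hz
        exact (hB.tL s hs Z a ha x hx z hz t ht).trans (Nat.pow_le_pow_left hB.Lam 2)
    _ = C.p.r * (C.p.q ^ (C.dt s).c x * M ^ 2) := by simp
    _ ≤ M * (M * M ^ 2) := Nat.mul_le_mul hB.r (Nat.mul_le_mul_right _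
        ((Nat.pow_le_pow_right hB.q1 (hc x hx)).trans hB.qc))
    _ = M ^ 4 := by ring

theorem sumJ_le (hQ : C.p.Q ≤ M) (hq : 1 ≤ C.p.q) {f : Tp → ℕ} {k : ℕ}
    (hf : ∀ t, TpOk C.p t → f t ≤ M ^ k) {t : Tp} (ht : TpOk C.p t) (j : ℕ) :
    sumJ C.p C.w j f t ≤ M ^ (k + 1) := by
  unfold sumJ
  calc _ ≤ ∑ σ ∈ range C.p.Q, M ^ k :=
        sum_le_sum fun σ _ => hf _ (tpOk_shT hq ht j σ)
    _ = C.p.Q * M ^ k := by simp
    _ ≤ M * M ^ k := Nat.mul_le_mul_right _ hQ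
    _ = M ^ (k + 1) := by ring

theorem avgV_le (hB : C.Base M) {s : ℕ} (hs : s < C.p.S)
    (hc : ∀ v < C.p.n, (C.dt s).c v ≤ C.p.cmax) {Z : ℕ → Prop} {o j a v x : ℕ} (ho : o ≤ M)
    (ha : a < C.p.r) (hv : v < C.p.n) (hx : x < C.p.n) {t : Tp} (ht : TpOk C.p t) :
    avgV C.p C.T C.w (C.dt s) Z o j a v x t ≤ M ^ 6 := by
  unfold avgV
  exact upN_le hB.D hB.Th hB.Q ho ((Nat.pow_le_pow_right hB.q1 (hc v hv)).trans hB.qc)
    (sumJ_le hB.Q hB.q1 (fun t ht => flow_le hB hs hc ha hx ht) ht j) hB.M4 (by norm_num)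

theorem avgL_le (hB : C.Base M) {s : ℕ} (hs : s < C.p.S)
    (hc : ∀ v < C.p.n, (C.dt s).c v ≤ C.p.cmax) {Z : ℕ → Prop} {o j x : ℕ} (ho : o ≤ M)
    (hx : x < C.p.n) {t : Tp} (ht : TpOk C.p t) :
    avgL C.p C.T C.w (C.dt s) Z o j x t ≤ M ^ 8 := by
  unfold avgL
  exact upN_le hB.D hB.Th hB.Q ho ((Nat.pow_le_pow_right hB.q1 (hc x hx)).trans hB.qc)
    (sumJ_le hB.Q hB.q1 (fun t ht => lossT_le hB hs hc hx ht) ht j) hB.M4 (by norm_num)

theorem tour_le (hB : C.Base M) {s : ℕ} (hs : s < C.p.S) {Z : ℕ → Prop} {a v x z : ℕ}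
    (ha : a < C.p.r) (hx : x < C.p.n) (hz : z < C.p.q ^ (C.dt s).c x) {t : Tp}
    (ht : TpOk C.p t) : C.T.tour C.p.Lam (C.dt s) Z a v x z t ≤ M ^ 4 := by
  have hM := hB.M4
  unfold TSem.tour
  split_ifs with h1
  · have h2 := hB.tC s hs Z a ha v x hx z hz t ht h1
    have h3 := hB.Lam
    have h4 := pair_lt (a := C.T.W (C.dt s) a x z t) (b := C.T.C (C.dt s) Z a v x z t)
      (X := M + 1) (by omega) (by omega)
    calc _ ≤ (M + 1) ^ 2 := h4
      _ ≤ (M ^ 2) ^ 2 := Nat.pow_le_pow_left (by nlinarith) 2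
      _ = M ^ 4 := by ring
  · exact Nat.zero_le _

theorem colS_le (hB : C.Base M) {d : SD} (hd : C.DtOk d) {x : ℕ} (hx : x < C.p.n) :
    colS C.p.n (FD C.p.toPar d) x ≤ M ^ 2 := by
  unfold colS pre FD
  calc _ ≤ ∑ v ∈ range C.p.n, M := by
        refine sum_le_sum fun v hv => ?_
        rw [mem_range] at hv
        have h1 : d.A v x ≤ C.p.q ^ C.p.b := by
          rw [← hd.row v hv]
          exact single_le_sum (f := fun x => d.A v x) (fun _ _ => Nat.zero_le _)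
            (mem_range.2 hx)
        calc C.p.q ^ (d.c v - C.p.b) * d.A v x ≤ C.p.q ^ (d.c v - C.p.b) * C.p.q ^ C.p.b :=
              Nat.mul_le_mul_left _ h1
          _ = C.p.q ^ d.c v := by
              rw [← pow_add]
              congr 1
              have := hd.cb v hv
              omega
          _ ≤ M := (Nat.pow_le_pow_right hB.q1 (hd.cm v hv)).trans hB.qc
    _ = C.p.n * M := by simp
    _ ≤ M * M := Nat.mul_le_mul_right _ hB.n.le
    _ = M ^ 2 := by ring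

theorem hop_le (hB : C.Base M) {d : SD} (hd : C.DtOk d) {q : ℕ} (h : vq C.p d phHop q) :
    (if BP.q1 q = 0 then Nat.pair (BP.hopF C.p.toPar d (q2 q) (e3 q)).1
        (BP.hopF C.p.toPar d (q2 q) (e3 q)).2
    else if e3 q < cumC C.p.toPar d (q2 q) C.p.n then
      Nat.pair (hopB C.p.toPar d (q2 q) (e3 q)).1 (hopB C.p.toPar d (q2 q) (e3 q)).2 + 1
    else 0) ≤ M ^ 4 := by
  have hM := hB.M4
  have hn := hB.n
  have e : phHop ≠ phData := by decide
  simp only [vq, if_neg e, if_true] at h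
  have h12 : M ≤ M ^ 2 := self_le_sq
  have e4 : (M ^ 2) ^ 2 = M ^ 4 := by ring
  rcases h with ⟨h1, h2, h3⟩ | ⟨h1, h2, h3⟩
  · rw [if_pos h1, hopF_fst, hopF_snd]
    have hz : e3 q < rowS C.p.n (FD C.p.toPar d) (q2 q) := by
      rw [rowS_FD (hd.row _ h2) (hd.cb _ h2)]
      exact h3
    have h4 := fx_lt hz
    have h5 := fr_lt h2 hz
    have h6 := colS_le hB hd h4
    have h7 := pair_lt (a := fx C.p.n (FD C.p.toPar d) (q2 q) (e3 q))
      (b := fr C.p.n (FD C.p.toPar d) (q2 q) (e3 q)) (X := M ^ 2) (by omega) (by omega)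
    rw [e4] at h7
    exact h7.le
  · rw [if_neg (by omega), hopB_fst, hopB_snd]
    split_ifs with h4
    · have h5 : e3 q < colS C.p.n (FD C.p.toPar d) (q2 q) := h4
      have h6 := bv_lt h5
      have h7 := bz_lt h2 h5
      rw [rowS_FD (hd.row _ h6) (hd.cb _ h6)] at h7
      have h8 : HD C.p.toPar d (bv C.p.n (FD C.p.toPar d) (q2 q) (e3 q)) ≤ M :=
        (Nat.pow_le_pow_right hB.q1 (hd.cm _ h6)).trans hB.qc
      have h9 := pair_lt (a := bv C.p.n (FD C.p.toPar d) (q2 q) (e3 q))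
        (b := bz C.p.n (FD C.p.toPar d) (q2 q) (e3 q)) (X := M ^ 2) (by omega) (by omega)
      rw [e4] at h9
      exact h9
    · exact Nat.zero_le _

theorem toNat_le {z : ℤ} {M : ℕ} (h : z ≤ M) : z.toNat ≤ M := by omega

/-- Canonical values are small. -/
theorem phVal_le (hB : C.Base M) {s : ℕ} (hs : s < C.p.S) (hd : C.DtOk (C.dt s)) {ph q : ℕ}
    (hph : ph < C.p.m) (h : vq C.p (C.dt s) ph q) {t : Tp} (ht : TpOk C.p t) :
    phVal C.p C.S C.T C.w (C.dt s) (C.o s 0) (C.o s 1) (C.o s 2) ph q t ≤ M ^ 8 := by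
  have hM := hB.M4
  have hc := hd.cm
  have h18 : M ≤ M ^ 8 := Nat.le_self_pow (by norm_num) M
  have h28 := pow_mono hM (show 2 ≤ 8 by norm_num)
  have h48 := pow_mono hM (show 4 ≤ 8 by norm_num)
  have h68 := pow_mono hM (show 6 ≤ 8 by norm_num)
  have ho0 := hB.off s hs 0 (by norm_num)
  have ho1 := hB.off s hs 1 (by norm_num)
  have ho2 := hB.off s hs 2 (by norm_num)
  have hOm := hB.Om
  unfold phVal
  unfold vq at h
  by_cases c1 : ph = phData
  · rw [if_pos c1] at h ⊢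
    obtain ⟨h1, h2, h3⟩ := h
    split_ifs
    · refine le_trans ?_ (hB.qb.trans h18)
      rw [← hd.row _ h2]
      exact single_le_sum (f := fun x => (C.dt s).A (q2 q) x) (fun _ _ => Nat.zero_le _)
        (mem_range.2 h3)
    · exact (hd.cm _ h2).trans (hB.cmax.trans h18)
    · exact (hd.kK _ h2).trans (hB.K.trans h18)
  rw [if_neg c1] at h ⊢
  by_cases c2 : ph = phHop
  · rw [if_pos c2] at h ⊢
    refine (hop_le hB hd ?_).trans h48
    have e : phHop ≠ phData := by decide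
    simp only [vq, if_neg e, if_true]
    exact h
  rw [if_neg c2] at h ⊢
  by_cases c3 : ph = phT0
  · rw [if_pos c3]
    rw [if_pos (Or.inl c3)] at h
    exact (tour_le hB hs h.1 h.2.2.1 h.2.2.2 ht).trans h48
  rw [if_neg c3]
  by_cases c4 : ph = phPJ0
  · rw [if_pos c4]
    rw [if_neg (by unfold phT0 phT1 phT2 phPJ0 at *; omega), if_pos (Or.inl c4)] at h
    exact (avgV_le hB hs hc ho0 h.2.1 h.2.2.1 h.2.2.2 ht).trans h68
  rw [if_neg c4]
  by_cases c5 : ph = phP0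
  · rw [if_pos c5]
    rw [if_neg (by unfold phT0 phT1 phT2 phP0 at *; omega),
      if_neg (by unfold phPJ0 phPJ2 phP0 at *; omega), if_pos (Or.inl c5)] at h
    exact (up_le_of (hB.P1 s hs _ _ h.1 _ h.2.1 _ h.2.2) hB.Th ho0 hM).trans h28
  rw [if_neg c5]
  by_cases c6 : ph < phZ1 C.p.JF
  · rw [if_pos c6]
    rw [if_neg (by unfold phT0 phT1 phT2 phZ1 at *; omega),
      if_neg (by unfold phPJ0 phPJ2 phZ1 at *; omega),
      if_neg (by unfold phP0 phP2 phZ1 at *; omega),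
      if_neg (by unfold phZ1 phZZ at *; omega),
      if_neg (by unfold phLT phZ1 at *; omega),
      if_neg (by unfold phLJ phZ1 at *; omega), if_pos c6] at h
    refine (hB.pr0 s hs _ ?_ _ h.1 _ h.2.1 _ h.2.2).trans h18
    unfold phZ1 phPr0 at *
    omega
  rw [if_neg c6]
  by_cases c7 : ph = phZ1 C.p.JF
  · rw [if_pos c7]
    split_ifs <;> omega
  rw [if_neg c7]
  by_cases c8 : ph = phT1 C.p.JF
  · rw [if_pos c8]
    rw [if_pos (Or.inr (Or.inl c8))] at h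
    exact (tour_le hB hs h.1 h.2.2.1 h.2.2.2 ht).trans h48
  rw [if_neg c8]
  by_cases c9 : ph = phLT C.p.JF
  · rw [if_pos c9]
    rw [if_neg (by unfold phT0 phT1 phT2 phLT at *; omega),
      if_neg (by unfold phPJ0 phPJ2 phLT at *; omega),
      if_neg (by unfold phP0 phP2 phLT at *; omega),
      if_neg (by unfold phZ1 phZZ phLT at *; omega), if_pos c9] at h
    exact ((hB.tL s hs _ _ h.1 _ h.2.1 _ h.2.2 t ht).trans
      (Nat.pow_le_pow_left hB.Lam 2)).trans h28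
  rw [if_neg c9]
  by_cases c10 : ph = phLJ C.p.JF
  · rw [if_pos c10]
    rw [if_neg (by unfold phT0 phT1 phT2 phLJ at *; omega),
      if_neg (by unfold phPJ0 phPJ2 phLJ at *; omega),
      if_neg (by unfold phP0 phP2 phLJ at *; omega),
      if_neg (by unfold phZ1 phZZ phLJ at *; omega),
      if_neg (by unfold phLT phLJ at *; omega), if_pos c10] at h
    exact avgL_le hB hs hc ho1 h.2 ht
  rw [if_neg c10]
  by_cases c11 : ph = phZZ C.p.JF
  · rw [if_pos c11]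
    split_ifs <;> omega
  rw [if_neg c11]
  by_cases c12 : ph = phT2 C.p.JF
  · rw [if_pos c12]
    rw [if_pos (Or.inr (Or.inr c12))] at h
    exact (tour_le hB hs h.1 h.2.2.1 h.2.2.2 ht).trans h48
  rw [if_neg c12]
  by_cases c13 : ph = phPJ2 C.p.JF
  · rw [if_pos c13]
    rw [if_neg (by unfold phT0 phT1 phT2 phPJ2 at *; omega), if_pos (Or.inr c13)] at h
    exact (avgV_le hB hs hc ho2 h.2.1 h.2.2.1 h.2.2.2 ht).trans h68
  rw [if_neg c13]
  by_cases c14 : ph = phP2 C.p.JF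
  · rw [if_pos c14]
    rw [if_neg (by unfold phT0 phT1 phT2 phP2 at *; omega),
      if_neg (by unfold phPJ0 phPJ2 phP2 at *; omega), if_pos (Or.inr c14)] at h
    exact (up_le_of (hB.P1 s hs _ _ h.1 _ h.2.1 _ h.2.2) hB.Th ho2 hM).trans h28
  rw [if_neg c14]
  rw [if_neg (by unfold phT0 phT1 phT2 phZ1 phLT phLJ phZZ phPJ2 phP2 at *; omega),
    if_neg (by unfold phPJ0 phPJ2 at *; omega), if_neg (by unfold phP0 phP2 at *; omega),
    if_neg (by unfold phZ1 phZZ at *; omega), if_neg c9, if_neg c10, if_neg c6] at h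
  by_cases c15 : ph ≤ phPr2 C.p.JF C.p.JF
  · rw [if_pos c15] at h ⊢
    refine (hB.pr2 s hs _ ?_ _ h.1 _ h.2.1 _ h.2.2).trans h18
    unfold phPr2 at *
    omega
  rw [if_neg c15] at h ⊢
  by_cases c16 : ph = phPhi C.p.JF C.p.JN
  · rw [if_pos c16]
    have h1 := hB.phi s hs _ h.1 _ h.2
    refine le_trans (toNat_le ?_) h18
    omega
  rw [if_neg c16]
  have hph' : ph < 16 + 2 * C.p.JF + 2 * C.p.JN := by
    unfold Par2.m nph at hph
    unfold phPhi at c16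
    omega
  have hph'' : 15 + 2 * C.p.JF ≤ ph := by
    unfold phPr2 at c15
    omega
  by_cases c17 : (ph - phG C.p.JF 0) % 2 = 0
  · rw [if_pos c17]
    have h1 := hB.gz s hs ((ph - phG C.p.JF 0) / 2) (by unfold phG at *; omega) _ h.1 _ h.2
    refine le_trans (toNat_le (M := M) ?_) h18
    omega
  · rw [if_neg c17]
    have h1 := hB.hn s hs ((ph - phG C.p.JF 0) / 2) (by unfold phG at *; omega) _ h.1 _ h.2
    refine le_trans (toNat_le (M := M) ?_) h18
    omega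

/-- The data phase, also for the last stage. -/
theorem phVal_data_le (hB : C.Base M) {s : ℕ} (hd : C.DtOk (C.dt s)) {q : ℕ}
    (h : vq C.p (C.dt s) phData q) {t : Tp} {o o' o'' : ℕ} :
    phVal C.p C.S C.T C.w (C.dt s) o o' o'' phData q t ≤ M ^ 8 := by
  have hM := hB.M4
  have h18 : M ≤ M ^ 8 := Nat.le_self_pow (by norm_num) M
  simp only [vq, if_true] at h
  simp only [phVal, if_true]
  obtain ⟨h1, h2, h3⟩ := h
  split_ifs
  · refine le_trans ?_ (hB.qb.trans h18)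
    rw [← hd.row _ h2]
    exact single_le_sum (f := fun x => (C.dt s).A (q2 q) x) (fun _ _ => Nat.zero_le _)
      (mem_range.2 h3)
  · exact (hd.cm _ h2).trans (hB.cmax.trans h18)
  · exact (hd.kK _ h2).trans (hB.K.trans h18)

theorem m_pos (C : Ctx) : 0 < C.p.m := by unfold Par2.m nph; omega

theorem level_cases {C : Ctx} {l : ℕ} (hl : l ≤ C.p.S * C.p.m) :
    (l / C.p.m < C.p.S ∧ l % C.p.m < C.p.m) ∨ (l / C.p.m = C.p.S ∧ l % C.p.m = phData) := by
  have hm := m_pos C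
  rcases hl.lt_or_eq with h | h
  · exact Or.inl ⟨(Nat.div_lt_iff_lt_mul hm).2 h, Nat.mod_lt _ hm⟩
  · right
    subst h
    exact ⟨Nat.mul_div_cancel _ hm, Nat.mul_mod_left _ _⟩

/-- Valid queries are small. -/
theorem Ctx.Base.qB (hB : C.Base M) (hd : ∀ s ≤ C.p.S, C.DtOk (C.dt s)) {l q : ℕ}
    (hl : l ≤ C.p.S * C.p.m) (h : C.vl l q) : q < M ^ 12 := by
  refine VC.lt hB.M4 (vq_VC hB (hd (l / C.p.m) ?_).cm h)
  rcases level_cases hl with h1 | h1
  · exact h1.1.le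
  · exact h1.1.le

/-- Canonical values are small. -/
theorem Ctx.Base.vB (hB : C.Base M) (hd : ∀ s ≤ C.p.S, C.DtOk (C.dt s)) {l q : ℕ}
    (hl : l ≤ C.p.S * C.p.m) (h : C.vl l q) {t : Tp} (ht : TpOk C.p t) : C.pv l q t ≤ M ^ 8 := by
  rcases level_cases hl with h1 | h1
  · exact phVal_le hB h1.1 (hd _ h1.1.le) h1.2 h ht
  · unfold Ctx.pv
    unfold Ctx.vl at h
    rw [h1.2] at h ⊢
    exact phVal_data_le hB (hd _ h1.1.le) h

end Vale.Agent.P313.H899
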