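import Vale.Agent.P313.H285.Goal
import Vale.Agent.P313.H931.Goal
import Vale.Agent.P313.H899.HopG
import Vale.Agent.P313.H899.Vals

/-!
The programs of all phases, and their goals.
-/

namespace Vale.Agent.P313.H899

open Finset CT BP

/-- The programs of the four phases which walk through trees. -/
structure TP where
  /-- tour of kind `0` -/
  t0 : CP
  /-- tour of kind `1` -/
  t1 : CP
  /-- tour of the loss -/
  lt : CP
  /-- tour of kind `2` -/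
  t2 : CP

/-- The program of kind `k`. -/
noncomputable def psF (T : TP) (cs : TS.Inp → ℕ → ℕ → ℕ) : ℕ → CP
  | 0 => TS.F3.dataP cs
  | 1 => hopP
  | 2 => T.t0
  | 3 => H931.pjP 0
  | 4 => TS.F3.majP
  | 5 => TS.F3.pr0P
  | 6 => TS.F3.z1P
  | 7 => T.t1
  | 8 => T.lt
  | 9 => H931.ljP
  | 10 => TS.F3.zzP
  | 11 => T.t2
  | 12 => H931.pjP 2
  | 13 => TS.F3.majP
  | 14 => TS.F3.pr2P
  | 15 => TS.F3.gP
  | 16 => TS.F3.hhP
  | _ => TS.F3.phiP

/-- All programs. -/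
noncomputable def psL (T : TP) (cs : TS.Inp → ℕ → ℕ → ℕ) : List CP :=
  (List.range 18).map (psF T cs)

theorem psL_length (T : TP) (cs : TS.Inp → ℕ → ℕ → ℕ) : (psL T cs).length = 18 := by
  simp [psL]

theorem psL_get (T : TP) (cs : TS.Inp → ℕ → ℕ → ℕ) {k : ℕ} (hk : k < (psL T cs).length) :
    (psL T cs)[k] = psF T cs k := by
  simp [psL]

/-- The tours are computable. -/
structure TP.Ok (T : TP) : Prop where
  t0 : T.t0.Ok
  t1 : T.t1.Ok
  lt : T.lt.Ok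
  t2 : T.t2.Ok

theorem psF_ok {T : TP} (hT : T.Ok) {cs : TS.Inp → ℕ → ℕ → ℕ}
    (hcs : TS.LF (fun x a => cs x (a 0) (a 1) : TS.Fn 2)) (k : ℕ) : (psF T cs k).Ok := by
  unfold psF
  split
  · exact TS.F3.dataP_ok hcs
  · exact hopP_ok
  · exact hT.t0
  · exact H931.pjP_ok 0
  · exact TS.F3.majP_ok
  · exact TS.F3.pr0P_ok
  · exact TS.F3.z1P_ok
  · exact hT.t1
  · exact hT.lt
  · exact H931.ljP_ok
  · exact TS.F3.zzP_ok
  · exact hT.t2
  · exact H931.pjP_ok 2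
  · exact TS.F3.majP_ok
  · exact TS.F3.pr2P_ok
  · exact TS.F3.gP_ok
  · exact TS.F3.hhP_ok
  · exact TS.F3.phiP_ok

theorem psL_ok {T : TP} (hT : T.Ok) {cs : TS.Inp → ℕ → ℕ → ℕ}
    (hcs : TS.LF (fun x a => cs x (a 0) (a 1) : TS.Fn 2)) : ∀ P ∈ psL T cs, P.Ok := by
  intro P hP
  unfold psL at hP
  rw [List.mem_map] at hP
  obtain ⟨k, -, rfl⟩ := hP
  exact psF_ok hT hcs k

variable {C : Ctx} {E : Env}

/-- The goals of the tours. -/
structure TP.Goals (T : TP) (C : Ctx) (E : Env) : Prop where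
  t0 : ∀ s < C.p.S, C.PGoal E T.t0 (s * C.p.m + phT0)
  t1 : ∀ s < C.p.S, C.PGoal E T.t1 (s * C.p.m + phT1 C.p.JF)
  lt : ∀ s < C.p.S, C.PGoal E T.lt (s * C.p.m + phLT C.p.JF)
  t2 : ∀ s < C.p.S, C.PGoal E T.t2 (s * C.p.m + phT2 C.p.JF)

theorem psF_goal (h : C.Hyp E) (n2 : H931.Num2 C E) (n3 : TS.F3.Num3 C E) {T : TP}
    (hT : T.Goals C E) {cs : TS.Inp → ℕ → ℕ → ℕ}
    (hcs : ∀ (V : Orc) (t : Tp) (v : ℕ), v + 1 < C.p.n →
      cs (inp E V t) v 0 = C.cs v false ∧ cs (inp E V t) v 1 = C.cs v true)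
    {s ph : ℕ} (hs : s < C.p.S) (hph : ph < C.p.m) :
    C.PGoal E (psF T cs (Ctx.kd C.p.JF C.p.JN ph)) (s * C.p.m + ph) := by
  have hm : C.p.m = 17 + 2 * C.p.JF + 2 * C.p.JN := rfl
  unfold Ctx.kd
  by_cases h1 : ph ≤ 4
  · rw [if_pos h1]
    interval_cases ph
    · exact TS.F3.data_goal h n3 hcs hs.le
    · exact hop_goal h n3.cB n3.qpos hs
    · exact hT.t0 s hs
    · exact H931.avg0_goal h n2 hs
    · exact TS.F3.maj0_goal h hs
  rw [if_neg h1]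
  by_cases h2 : ph ≤ 5 + C.p.JF
  · rw [if_pos h2]
    obtain ⟨j, rfl⟩ : ∃ j, ph = 5 + j := ⟨ph - 5, by omega⟩
    exact TS.F3.pr0_goal h hs (by omega)
  rw [if_neg h2]
  by_cases h3 : ph ≤ 13 + C.p.JF
  · rw [if_pos h3]
    obtain ⟨j, rfl⟩ : ∃ j, ph = j + C.p.JF := ⟨ph - C.p.JF, by omega⟩
    have hj1 : 6 ≤ j := by omega
    have hj2 : j ≤ 13 := by omega
    rw [Nat.add_sub_cancel]
    interval_cases j
    · exact TS.F3.z1_goal h n3 hs
    · exact hT.t1 s hs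
    · exact hT.lt s hs
    · exact H931.lj_goal h n2 hs
    · exact TS.F3.zz_goal h hs
    · exact hT.t2 s hs
    · exact H931.avg2_goal h n2 hs
    · exact TS.F3.maj2_goal h hs
  rw [if_neg h3]
  by_cases h4 : ph ≤ 14 + 2 * C.p.JF
  · rw [if_pos h4]
    obtain ⟨j, rfl⟩ : ∃ j, ph = 14 + C.p.JF + j := ⟨ph - (14 + C.p.JF), by omega⟩
    exact TS.F3.pr2_goal h n3 hs (by omega)
  rw [if_neg h4]
  by_cases h5 : ph = 16 + 2 * C.p.JF + 2 * C.p.JN
  · rw [if_pos h5, h5]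
    exact TS.F3.phi_goal h n3 hs
  rw [if_neg h5]
  by_cases h6 : (ph - (15 + 2 * C.p.JF)) % 2 = 0
  · rw [if_pos h6]
    obtain ⟨j, rfl⟩ : ∃ j, ph = 15 + 2 * C.p.JF + 2 * j :=
      ⟨(ph - (15 + 2 * C.p.JF)) / 2, by omega⟩
    exact TS.F3.g_goal h n3 hs (by omega)
  · rw [if_neg h6]
    obtain ⟨j, rfl⟩ : ∃ j, ph = 16 + 2 * C.p.JF + 2 * j :=
      ⟨(ph - (16 + 2 * C.p.JF)) / 2, by omega⟩
    exact TS.F3.hh_goal h n3 hs (by omega)

/-- All goals, in the form of the master theorem. -/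
theorem psi_goal (h : C.Hyp E) (n2 : H931.Num2 C E) (n3 : TS.F3.Num3 C E) {T : TP}
    (hT : T.Goals C E) {cs : TS.Inp → ℕ → ℕ → ℕ}
    (hcs : ∀ (V : Orc) (t : Tp) (v : ℕ), v + 1 < C.p.n →
      cs (inp E V t) v 0 = C.cs v false ∧ cs (inp E V t) v 1 = C.cs v true) :
    ∀ l ≤ C.p.S * C.p.m, ∀ (k : ℕ) (hk : k < (psL T cs).length),
      k = Ctx.kd C.p.JF C.p.JN (l % C.p.m) → C.PGoal E (psL T cs)[k] l := by
  intro l hl k hk hkd
  rw [psL_get, hkd]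
  have hm0 : 0 < C.p.m := m_pos C
  rcases Nat.lt_or_ge (l / C.p.m) C.p.S with h1 | h1
  · have h2 := psF_goal h n2 n3 hT hcs h1 (Nat.mod_lt l hm0)
    have h3 : l / C.p.m * C.p.m + l % C.p.m = l := by
      rw [mul_comm]
      exact Nat.div_add_mod l C.p.m
    rw [h3] at h2
    exact h2
  · have h2 : C.p.S * C.p.m ≤ l := by
      have := Nat.mul_le_mul_right C.p.m h1
      have := Nat.div_mul_le_self l C.p.m
      omega
    have h3 : l = C.p.S * C.p.m := by omega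
    subst h3
    rw [Nat.mul_mod_left]
    exact TS.F3.data_goal h n3 hcs le_rfl

/-- The induction over all levels. -/
theorem master_psi (h : C.Hyp E) (n2 : H931.Num2 C E) (n3 : TS.F3.Num3 C E) {T : TP}
    (hT : T.Goals C E) {cs : TS.Inp → ℕ → ℕ → ℕ}
    (hcs : ∀ (V : Orc) (t : Tp) (v : ℕ), v + 1 < C.p.n →
      cs (inp E V t) v 0 = C.cs v false ∧ cs (inp E V t) v 1 = C.cs v true) :
    Restores E (sel kdF (psL T cs)) (C.p.S * C.p.m) ∧
      ∀ l ≤ C.p.S * C.p.m, ∀ q ≤ E.B, ∀ t, TpOk C.p t → C.vl l q →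
        val E (sel kdF (psL T cs)) l q t = C.pv l q t :=
  master h (psL_length T cs) (psi_goal h n2 n3 hT hcs)

/-- The entry of the last matrix is the value of the last level. -/
theorem val_top (h : C.Hyp E) (n2 : H931.Num2 C E) (n3 : TS.F3.Num3 C E) {T : TP}
    (hT : T.Goals C E) {cs : TS.Inp → ℕ → ℕ → ℕ}
    (hcs : ∀ (V : Orc) (t : Tp) (v : ℕ), v + 1 < C.p.n →
      cs (inp E V t) v 0 = C.cs v false ∧ cs (inp E V t) v 1 = C.cs v true)
    {v x : ℕ} (hv : v < C.p.n) (hx : x < C.p.n) {t : Tp} (ht : TpOk C.p t) :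
    val E (sel kdF (psL T cs)) (C.p.S * C.p.m) (Nat.pair 0 (Nat.pair v x)) t =
      (C.dt C.p.S).A v x := by
  have hm0 : 0 < C.p.m := m_pos C
  have e1 : C.p.S * C.p.m / C.p.m = C.p.S := Nat.mul_div_cancel _ hm0
  have e2 : C.p.S * C.p.m % C.p.m = 0 := Nat.mul_mod_left _ _
  have hvl : C.vl (C.p.S * C.p.m) (Nat.pair 0 (Nat.pair v x)) := by
    unfold Ctx.vl
    rw [e1, e2]
    have e3 : (0 : ℕ) = phData := rfl
    unfold vq
    rw [if_pos e3]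
    simp only [q1_pair, q2_pair, e3_pair]
    exact ⟨by omega, hv, hx⟩
  rw [(master_psi h n2 n3 hT hcs).2 _ le_rfl _ (h.qB _ le_rfl _ hvl) t ht hvl]
  unfold Ctx.pv
  rw [e1, e2]
  have e3 : (0 : ℕ) = phData := rfl
  unfold phVal
  rw [if_pos e3]
  simp only [q1_pair, q2_pair, e3_pair, if_true]

end Vale.Agent.P313.H899
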