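import Vale.Agent.P313.H899.Hop
import Vale.Agent.P313.H899.Master

/-!
Bounds for valid queries and canonical values.
-/

namespace Vale.Agent.P313.H899

open Finset CT BP

theorem pair_lt {a b X : ℕ} (ha : a < X) (hb : b < X) : Nat.pair a b < X ^ 2 := by
  refine (Nat.pair_lt_max_add_one_sq a b).trans_le (Nat.pow_le_pow_left ?_ 2)
  have : max a b < X := max_lt ha hb
  omega

/-- Bounds for the basic quantities of a context. -/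
structure Ctx.Base (C : Ctx) (M : ℕ) : Prop where
  M4 : 4 ≤ M
  n : C.p.n < M
  q1 : 1 ≤ C.p.q
  qc : C.p.q ^ C.p.cmax ≤ M
  qb : C.p.q ^ C.p.b ≤ M
  Th : C.p.Th ≤ M
  D : C.p.D ≤ M
  Q : C.p.Q ≤ M
  Lam : C.p.Lam ≤ M
  r : C.p.r ≤ M
  lw : C.p.lw < M
  F2 : 2 ^ C.p.JF ≤ M
  K : C.p.K ≤ M
  cmax : C.p.cmax ≤ M
  Om : 2 * C.p.Om ≤ M
  /-- offsets -/
  off : ∀ s < C.p.S, ∀ i < 3, C.o s i ≤ M
  /-- sizes of trees -/
  tC : ∀ s < C.p.S, ∀ Z, ∀ a < C.p.r, ∀ v, ∀ x < C.p.n, ∀ z < C.p.q ^ (C.dt s).c x, ∀ t,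
    TpOk C.p t → C.T.W (C.dt s) a x z t < C.p.Lam →
    C.T.C (C.dt s) Z a v x z t ≤ C.p.Lam
  tL : ∀ s < C.p.S, ∀ Z, ∀ a < C.p.r, ∀ x < C.p.n, ∀ z < C.p.q ^ (C.dt s).c x, ∀ t,
    TpOk C.p t → C.T.Lo (C.dt s) Z a x z t ≤ C.p.Lam ^ 2
  /-- kernels -/
  P1 : ∀ s < C.p.S, ∀ Z, ∀ a < C.p.r, ∀ v < C.p.n, ∀ x < C.p.n, C.S.P (C.dt s) Z a v x ≤ 1
  /-- products -/
  pr0 : ∀ s < C.p.S, ∀ j ≤ C.p.JF, ∀ i < 2 ^ (C.p.JF - j), ∀ v < C.p.n, ∀ x < C.p.n,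
    prodM C.p.toPar (fac0 C.p.toPar C.S (C.dt s) (C.o s 0)) j i v x ≤ M
  pr2 : ∀ s < C.p.S, ∀ j ≤ C.p.JF, ∀ i < 2 ^ (C.p.JF - j), ∀ v < C.p.n, ∀ x < C.p.n,
    prodM C.p.toPar (fac2 C.p.toPar C.S (C.dt s) (C.o s 0) (C.o s 1) (C.o s 2)) j i v x ≤ M
  /-- Newton's iteration -/
  gz : ∀ s < C.p.S, ∀ j ≤ C.p.JN, ∀ v < C.p.n, ∀ x < C.p.n,
    Gz C.p.toPar C.S (C.dt s) (C.o s 0) (C.o s 1) (C.o s 2) j v x ≤ C.p.Om
  hn : ∀ s < C.p.S, ∀ j < C.p.JN, ∀ v < C.p.n, ∀ x < C.p.n,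
    Hn C.p.toPar (Lm C.p.toPar C.S (C.dt s) (C.o s 0) (C.o s 1))
      (Gz C.p.toPar C.S (C.dt s) (C.o s 0) (C.o s 1) (C.o s 2) j) v x ≤ C.p.Om
  phi : ∀ s < C.p.S, ∀ v < C.p.n, ∀ x < C.p.n,
    Phi C.p.toPar C.S (C.dt s) (C.o s 0) (C.o s 1) (C.o s 2) v x ≤ M

section queries

variable {C : Ctx} {M : ℕ}

theorem q_eq2 (q : ℕ) : q = Nat.pair (BP.q1 q) (e2 q) := by
  simp [BP.q1, e2]

theorem q_eq3 (q : ℕ) : q = Nat.pair (BP.q1 q) (Nat.pair (q2 q) (e3 q)) := by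
  simp [BP.q1, q2, e3]

theorem q_eq4 (q : ℕ) : q = Nat.pair (BP.q1 q) (Nat.pair (q2 q) (Nat.pair (q3 q) (q4 q))) := by
  simp [BP.q1, q2, q3, q4]

theorem lt2 {q X : ℕ} (h1 : BP.q1 q < X) (h2 : e2 q < X) : q < X ^ 2 := by
  rw [q_eq2 q]; exact pair_lt h1 h2

theorem self_le_sq {X : ℕ} : X ≤ X ^ 2 := Nat.le_self_pow (by norm_num) X

theorem lt3 {q X : ℕ} (h1 : BP.q1 q < X) (h2 : q2 q < X) (h3 : e3 q < X) : q < X ^ 4 := by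
  rw [q_eq3 q]
  have h := pair_lt h2 h3
  have e : X ^ 4 = (X ^ 2) ^ 2 := by ring
  rw [e]
  exact pair_lt (h1.trans_le self_le_sq) h

theorem lt4 {q X : ℕ} (h1 : BP.q1 q < X) (h2 : q2 q < X) (h3 : q3 q < X) (h4 : q4 q < X) :
    q < X ^ 8 := by
  rw [q_eq4 q]
  have h := pair_lt h3 h4
  have h' := pair_lt (h2.trans_le self_le_sq) h
  have e : X ^ 8 = ((X ^ 2) ^ 2) ^ 2 := by ring
  rw [e]
  exact pair_lt ((h1.trans_le self_le_sq).trans_le self_le_sq) h'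

theorem pow_mono {M a b : ℕ} (hM : 4 ≤ M) (h : a ≤ b) : M ^ a ≤ M ^ b :=
  Nat.pow_le_pow_right (by omega) h

/-- Components of valid queries are small. -/
def VC (M q : ℕ) : Prop :=
  (BP.q1 q < M ∧ e2 q < M) ∨ (BP.q1 q < M ∧ q2 q < M ∧ e3 q < M ^ 3) ∨
    (BP.q1 q < M ∧ q2 q < M ∧ q3 q < M ∧ q4 q < M) ∨ q < M

theorem VC.lt {M q : ℕ} (hM : 4 ≤ M) (h : VC M q) : q < M ^ 12 := by
  have h812 := pow_mono hM (show 8 ≤ 12 by norm_num)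
  have h212 := pow_mono hM (show 2 ≤ 12 by norm_num)
  have h112 : M ≤ M ^ 12 := Nat.le_self_pow (by norm_num) M
  have h5 : M ≤ M ^ 3 := Nat.le_self_pow (by norm_num) M
  rcases h with ⟨h1, h2⟩ | ⟨h1, h2, h3⟩ | ⟨h1, h2, h3, h4⟩ | h
  · exact (lt2 h1 h2).trans_le h212
  · have h6 := lt3 (q := q) (X := M ^ 3) (h1.trans_le h5) (h2.trans_le h5) h3
    have e : (M ^ 3) ^ 4 = M ^ 12 := by ring
    rwa [e] at h6
  · exact (lt4 h1 h2 h3 h4).trans_le h812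
  · exact h.trans_le h112

/-- Valid queries are small. -/
theorem vq_VC (hB : C.Base M) {d : SD} (hc : ∀ v < C.p.n, d.c v ≤ C.p.cmax) {ph q : ℕ}
    (h : vq C.p d ph q) : VC M q := by
  have hM := hB.M4
  have hn := hB.n
  have hqc : ∀ v < C.p.n, C.p.q ^ d.c v ≤ M := fun v hv =>
    (Nat.pow_le_pow_right hB.q1 (hc v hv)).trans hB.qc
  have hr := hB.r
  have hlw := hB.lw
  have h5 : M ≤ M ^ 3 := Nat.le_self_pow (by norm_num) M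
  unfold vq at h
  by_cases c1 : ph = phData
  · rw [if_pos c1] at h
    exact Or.inr (Or.inl ⟨by omega, by omega, by omega⟩)
  rw [if_neg c1] at h
  by_cases c2 : ph = phHop
  · rw [if_pos c2] at h
    refine Or.inr (Or.inl ?_)
    rcases h with ⟨h1, h2, h3⟩ | ⟨h1, h2, h3⟩
    · exact ⟨by omega, by omega, (h3.trans_le (hqc _ h2)).trans_le h5⟩
    · refine ⟨by omega, by omega, h3.trans_le ?_⟩
      calc C.p.q ^ C.p.cmax * C.p.n * C.p.q ^ C.p.b ≤ M * M * M :=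
            Nat.mul_le_mul (Nat.mul_le_mul hB.qc hn.le) hB.qb
        _ = M ^ 3 := by ring
  rw [if_neg c2] at h
  by_cases c3 : ph = phT0 ∨ ph = phT1 C.p.JF ∨ ph = phT2 C.p.JF
  · rw [if_pos c3] at h
    obtain ⟨h1, h2, h3, h4⟩ := h
    exact Or.inr (Or.inr (Or.inl ⟨by omega, by omega, by omega, h4.trans_le (hqc _ h3)⟩))
  rw [if_neg c3] at h
  by_cases c4 : ph = phPJ0 ∨ ph = phPJ2 C.p.JF
  · rw [if_pos c4] at h
    obtain ⟨h1, h2, h3, h4⟩ := h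
    exact Or.inr (Or.inr (Or.inl ⟨by omega, by omega, by omega, by omega⟩))
  rw [if_neg c4] at h
  by_cases c5 : ph = phP0 ∨ ph = phP2 C.p.JF
  · rw [if_pos c5] at h
    obtain ⟨h1, h2, h3⟩ := h
    exact Or.inr (Or.inl ⟨by omega, by omega, by omega⟩)
  rw [if_neg c5] at h
  by_cases c6 : ph = phZ1 C.p.JF ∨ ph = phZZ C.p.JF
  · rw [if_pos c6] at h
    exact Or.inr (Or.inr (Or.inr (by omega)))
  rw [if_neg c6] at h
  by_cases c7 : ph = phLT C.p.JF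
  · rw [if_pos c7] at h
    obtain ⟨h1, h2, h3⟩ := h
    exact Or.inr (Or.inl ⟨by omega, by omega, (h3.trans_le (hqc _ h2)).trans_le h5⟩)
  rw [if_neg c7] at h
  by_cases c8 : ph = phLJ C.p.JF
  · rw [if_pos c8] at h
    exact Or.inl ⟨by omega, by omega⟩
  rw [if_neg c8] at h
  have hp : ∀ j, BP.q1 q < 2 ^ (C.p.JF - j) → BP.q1 q < M := fun j hj =>
    hj.trans_le ((Nat.pow_le_pow_right (by norm_num) (Nat.sub_le _ _)).trans hB.F2)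
  by_cases c9 : ph < phZ1 C.p.JF
  · rw [if_pos c9] at h
    obtain ⟨h1, h2, h3⟩ := h
    exact Or.inr (Or.inl ⟨hp _ h1, by omega, by omega⟩)
  rw [if_neg c9] at h
  by_cases c10 : ph ≤ phPr2 C.p.JF C.p.JF
  · rw [if_pos c10] at h
    obtain ⟨h1, h2, h3⟩ := h
    exact Or.inr (Or.inl ⟨hp _ h1, by omega, by omega⟩)
  rw [if_neg c10] at h
  exact Or.inl ⟨by omega, by omega⟩

end queries

end Vale.Agent.P313.H899
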